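/-
R166 Spin/Basic (leaves S1, S2).  Spin operators: locality, selfadjointness, norm bounds.
PROOF TEXT.
 S1 (membership, selfadjointness).  spinZ, spinPlus are finite sums of scalar multiples of localUnit x _ _ ∈ Loc X (localUnit_mem_Loc):
   Subalgebra-style closure: sum_mem, (Loc d ℓ X).smul_mem, star_mem, add_mem, sub_mem.
   IsSelfAdjoint (spinZ x): star of the sum (star_sum, star_smul, star_localUnit), the coefficients are real (Complex.conj_ofReal).
   spinX: star (S+ + S-) = S- + S+ (spinMinus = star spinPlus, star_star), coefficient 1/2 real.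
   spinY: star ((1/(2I)) • (S+ - S-)) = conj(1/(2I)) • (S- - S+) = (1/(2I)) • (S+ - S-)  since conj (1/(2I)) = -(1/(2I)).
 S2 (norms).  norm_sum_le, norm_smul, norm_localUnit_le, Complex.norm_real, norm_star;  ‖1/(2I)‖ = 1/2.
Helper lemmas: prefix `sb_`.
-/
import Claimed.Agent.R166.Loc.Basic

set_option autoImplicit false
set_option linter.unusedSectionVars false

namespace Claimed.Agent.R166

open Claims.C0296.Heisenberg
open scoped Classical

noncomputable section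

variable {d ℓ : ℕ}

theorem sb_spinPlus_mem_Loc {X : Finset (Site d)} {x : Site d} (hx : x ∈ X) :
    spinPlus d ℓ x ∈ Loc d ℓ X := by
  unfold spinPlus
  exact sum_mem fun k _ => (Loc d ℓ X).smul_mem (localUnit_mem_Loc hx _ _) _

theorem sb_spinMinus_mem_Loc {X : Finset (Site d)} {x : Site d} (hx : x ∈ X) :
    spinMinus d ℓ x ∈ Loc d ℓ X :=
  star_mem (sb_spinPlus_mem_Loc hx)

theorem spinZ_mem_Loc {X : Finset (Site d)} {x : Site d} (hx : x ∈ X) :
    spinZ d ℓ x ∈ Loc d ℓ X := by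
  unfold spinZ
  exact sum_mem fun k _ => (Loc d ℓ X).smul_mem (localUnit_mem_Loc hx _ _) _

theorem spinX_mem_Loc {X : Finset (Site d)} {x : Site d} (hx : x ∈ X) :
    spinX d ℓ x ∈ Loc d ℓ X := by
  unfold spinX
  exact (Loc d ℓ X).smul_mem (add_mem (sb_spinPlus_mem_Loc hx) (sb_spinMinus_mem_Loc hx)) _

theorem spinY_mem_Loc {X : Finset (Site d)} {x : Site d} (hx : x ∈ X) :
    spinY d ℓ x ∈ Loc d ℓ X := by
  unfold spinY
  exact (Loc d ℓ X).smul_mem (sub_mem (sb_spinPlus_mem_Loc hx) (sb_spinMinus_mem_Loc hx)) _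

theorem spinZ_selfAdjoint (x : Site d) : IsSelfAdjoint (spinZ d ℓ x) := by
  show star (spinZ d ℓ x) = spinZ d ℓ x
  unfold spinZ
  rw [star_sum]
  refine Finset.sum_congr rfl fun k _ => ?_
  rw [star_smul, star_localUnit]
  congr 1
  exact Complex.conj_ofReal _

theorem spinX_selfAdjoint (x : Site d) : IsSelfAdjoint (spinX d ℓ x) := by
  show star (spinX d ℓ x) = spinX d ℓ x
  unfold spinX spinMinus
  rw [star_smul, star_add, star_star, add_comm]
  congr 1
  simp

theorem spinY_selfAdjoint (x : Site d) : IsSelfAdjoint (spinY d ℓ x) := by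
  show star (spinY d ℓ x) = spinY d ℓ x
  unfold spinY spinMinus
  rw [star_smul, star_sub, star_star]
  have hc : star (1 / (2 * Complex.I) : ℂ) = -(1 / (2 * Complex.I)) := by
    simp
  rw [hc, neg_smul, ← smul_neg, neg_sub]

/-- bound for `‖spinZ‖`. -/
def cz (ℓ : ℕ) : ℝ := ∑ k : Level ℓ, |magneticLevel ℓ k|

/-- bound for `‖spinPlus‖`, `‖spinX‖`, `‖spinY‖`. -/
def cp (ℓ : ℕ) : ℝ := ∑ k : Fin ℓ,
    Real.sqrt ((ℓ / 2 : ℝ) * (ℓ / 2 + 1) -
      magneticLevel ℓ k.castSucc * (magneticLevel ℓ k.castSucc + 1))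

theorem cz_nonneg (ℓ : ℕ) : 0 ≤ cz ℓ := Finset.sum_nonneg fun _ _ => abs_nonneg _

theorem cp_nonneg (ℓ : ℕ) : 0 ≤ cp ℓ := Finset.sum_nonneg fun _ _ => Real.sqrt_nonneg _

theorem norm_spinZ_le (x : Site d) : ‖spinZ d ℓ x‖ ≤ cz ℓ := by
  unfold spinZ cz
  refine (norm_sum_le _ _).trans (Finset.sum_le_sum fun k _ => ?_)
  rw [norm_smul, Complex.norm_real, Real.norm_eq_abs]
  exact mul_le_of_le_one_right (abs_nonneg _) (norm_localUnit_le x k k)

theorem sb_norm_spinPlus_le (x : Site d) : ‖spinPlus d ℓ x‖ ≤ cp ℓ := by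
  unfold spinPlus cp
  refine (norm_sum_le _ _).trans (Finset.sum_le_sum fun k _ => ?_)
  rw [norm_smul, Complex.norm_real, Real.norm_eq_abs, abs_of_nonneg (Real.sqrt_nonneg _)]
  exact mul_le_of_le_one_right (Real.sqrt_nonneg _) (norm_localUnit_le x _ _)

theorem sb_norm_spinMinus_le (x : Site d) : ‖spinMinus d ℓ x‖ ≤ cp ℓ := by
  unfold spinMinus
  exact (norm_star (spinPlus d ℓ x)).trans_le (sb_norm_spinPlus_le x)

theorem norm_spinX_le (x : Site d) : ‖spinX d ℓ x‖ ≤ cp ℓ := by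
  unfold spinX
  rw [norm_smul]
  have h1 : ‖(1 / 2 : ℂ)‖ = 1 / 2 := by simp
  have h2 := norm_add_le (spinPlus d ℓ x) (spinMinus d ℓ x)
  have h3 := sb_norm_spinPlus_le (ℓ := ℓ) x
  have h4 := sb_norm_spinMinus_le (ℓ := ℓ) x
  rw [h1]
  linarith

theorem norm_spinY_le (x : Site d) : ‖spinY d ℓ x‖ ≤ cp ℓ := by
  unfold spinY
  rw [norm_smul]
  have h1 : ‖(1 / (2 * Complex.I) : ℂ)‖ = 1 / 2 := by simp
  have h2 := norm_sub_le (spinPlus d ℓ x) (spinMinus d ℓ x)
  have h3 := sb_norm_spinPlus_le (ℓ := ℓ) x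
  have h4 := sb_norm_spinMinus_le (ℓ := ℓ) x
  rw [h1]
  linarith

end

end Claimed.Agent.R166
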