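/-
R166 Spin/Bond (leaf S3).  The bond term  bond x y = S_x · S_y.
PROOF TEXT.
 bond_mem_Loc: mul_mem, add_mem with spinX_mem_Loc etc.
 bond_comm: if x = y trivial; if x ≠ y each product commutes: Loc_comm (Finset.disjoint_singleton.2 hxy) with X = {x}, Y = {y}.
 bond_selfAdjoint: star (a*b) = star b * star a = b * a; for x ≠ y  b * a = a * b by Loc_comm; for x = y  a = b.  IsSelfAdjoint.add.
 norm_bond_le: norm_add_le, norm_mul_le, norm_spinX_le ...:  ≤ cp^2 + cp^2 + cz^2 ≤ Jc.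
Helper lemmas: prefix `bd_`.
-/
import Claimed.Agent.R166.Spin.Basic
import Claimed.Agent.R166.Loc.Comm

set_option autoImplicit false
set_option linter.unusedSectionVars false

namespace Claimed.Agent.R166

open Claims.C0296.Heisenberg
open scoped Classical

noncomputable section

variable (d ℓ : ℕ)

/-- `S_x · S_y`. -/
def bond (x y : Site d) : QuasiLocal d ℓ :=
  spinX d ℓ x * spinX d ℓ y + spinY d ℓ x * spinY d ℓ y + spinZ d ℓ x * spinZ d ℓ y

/-- common bound for bond terms and field terms (strictly positive). -/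
def Jc (ℓ : ℕ) : ℝ := 2 * cp ℓ ^ 2 + cz ℓ ^ 2 + cz ℓ + 1

variable {d ℓ}

theorem Jc_pos (ℓ : ℕ) : 0 < Jc ℓ := by
  have h1 := cz_nonneg ℓ
  have h2 := sq_nonneg (cp ℓ)
  have h3 := sq_nonneg (cz ℓ)
  unfold Jc
  linarith

theorem bond_mem_Loc {X : Finset (Site d)} {x y : Site d} (hx : x ∈ X) (hy : y ∈ X) :
    bond d ℓ x y ∈ Loc d ℓ X := by
  unfold bond
  exact add_mem (add_mem (mul_mem (spinX_mem_Loc hx) (spinX_mem_Loc hy))
    (mul_mem (spinY_mem_Loc hx) (spinY_mem_Loc hy)))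
    (mul_mem (spinZ_mem_Loc hx) (spinZ_mem_Loc hy))

theorem bd_commX (x y : Site d) : spinX d ℓ x * spinX d ℓ y = spinX d ℓ y * spinX d ℓ x := by
  by_cases hxy : x = y
  · rw [hxy]
  · exact Loc_comm (Finset.disjoint_singleton.2 hxy)
      (spinX_mem_Loc (Finset.mem_singleton_self x)) (spinX_mem_Loc (Finset.mem_singleton_self y))

theorem bd_commY (x y : Site d) : spinY d ℓ x * spinY d ℓ y = spinY d ℓ y * spinY d ℓ x := by
  by_cases hxy : x = y
  · rw [hxy]
  · exact Loc_comm (Finset.disjoint_singleton.2 hxy)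
      (spinY_mem_Loc (Finset.mem_singleton_self x)) (spinY_mem_Loc (Finset.mem_singleton_self y))

theorem bd_commZ (x y : Site d) : spinZ d ℓ x * spinZ d ℓ y = spinZ d ℓ y * spinZ d ℓ x := by
  by_cases hxy : x = y
  · rw [hxy]
  · exact Loc_comm (Finset.disjoint_singleton.2 hxy)
      (spinZ_mem_Loc (Finset.mem_singleton_self x)) (spinZ_mem_Loc (Finset.mem_singleton_self y))

theorem bond_comm (x y : Site d) : bond d ℓ x y = bond d ℓ y x := by
  unfold bond
  rw [bd_commX x y, bd_commY x y, bd_commZ x y]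

theorem bond_selfAdjoint (x y : Site d) : IsSelfAdjoint (bond d ℓ x y) := by
  unfold bond
  refine IsSelfAdjoint.add (IsSelfAdjoint.add ?_ ?_) ?_
  · rw [IsSelfAdjoint, star_mul, (spinX_selfAdjoint x).star_eq, (spinX_selfAdjoint y).star_eq,
      bd_commX]
  · rw [IsSelfAdjoint, star_mul, (spinY_selfAdjoint x).star_eq, (spinY_selfAdjoint y).star_eq,
      bd_commY]
  · rw [IsSelfAdjoint, star_mul, (spinZ_selfAdjoint x).star_eq, (spinZ_selfAdjoint y).star_eq,
      bd_commZ]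

theorem norm_bond_le (x y : Site d) : ‖bond d ℓ x y‖ ≤ Jc ℓ := by
  unfold bond Jc
  have hX : ‖spinX d ℓ x * spinX d ℓ y‖ ≤ cp ℓ ^ 2 := by
    refine (norm_mul_le _ _).trans ?_
    rw [sq]
    exact mul_le_mul (norm_spinX_le x) (norm_spinX_le y) (norm_nonneg _) (cp_nonneg ℓ)
  have hY : ‖spinY d ℓ x * spinY d ℓ y‖ ≤ cp ℓ ^ 2 := by
    refine (norm_mul_le _ _).trans ?_
    rw [sq]
    exact mul_le_mul (norm_spinY_le x) (norm_spinY_le y) (norm_nonneg _) (cp_nonneg ℓ)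
  have hZ : ‖spinZ d ℓ x * spinZ d ℓ y‖ ≤ cz ℓ ^ 2 := by
    refine (norm_mul_le _ _).trans ?_
    rw [sq]
    exact mul_le_mul (norm_spinZ_le x) (norm_spinZ_le y) (norm_nonneg _) (cz_nonneg ℓ)
  have h1 := norm_add_le (spinX d ℓ x * spinX d ℓ y + spinY d ℓ x * spinY d ℓ y)
    (spinZ d ℓ x * spinZ d ℓ y)
  have h2 := norm_add_le (spinX d ℓ x * spinX d ℓ y) (spinY d ℓ x * spinY d ℓ y)
  have h3 := cz_nonneg ℓ
  linarith

theorem norm_spinZ_le_Jc (x : Site d) : ‖spinZ d ℓ x‖ ≤ Jc ℓ := by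
  have h := norm_spinZ_le (ℓ := ℓ) x
  have h2 := sq_nonneg (cp ℓ)
  have h3 := sq_nonneg (cz ℓ)
  unfold Jc
  linarith

end

end Claimed.Agent.R166
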